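import Vale.Agent.P092.L.H658.Asm
import Vale.Agent.P092.H377.SummL
import Vale.Agent.P092.L.H132.REst

/-!
P092 (helper658), block T2: the amenability functions on a subgroup of `SL_3(ℤ)`, from the
left estimate of helper175.
-/

namespace Vale.Agent.P092.L.H658

open Vale.Agent.P092.L.H553
open Vale.Agent.P092.H553 (hs)
variable {G3 : Type} [Group G3] [Emb G3]

open Vale.Agent.P092.L.H553 Vale.Agent.P092.L.H132 Vale.Agent.P092.L.H175

/-- The left estimate (helper175). -/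
def LeftEst (G3 : Type) [Group G3] [Emb G3] : Prop :=
  ∀ (κ θ e t1 t2 : ℝ) (s g b : G3), rA s ≤ κ → rB s ≤ κ → e ≤ 1 / 2 → 6 / G12 g ≤ e →
    6 / G23 g ≤ e → Real.exp (-t1 / 2) ≤ θ → Real.exp (-t2 / 2) ≤ θ → θ ≤ 1 →
    |rB (s * g) / rB g * ff (t1 + Real.log ((rA (s * g) / rA g) ^ 2 / (rB (s * g) / rB g)))
        (t2 + Real.log ((rB (s * g) / rB g) ^ 2 / (rA (s * g) / rA g))) (s * g) (s * b)
      - ff t1 t2 g b| ≤ (17 * κ ^ 2 * θ + 11 * κ ^ 3 * e * Real.exp t1) * ff t1 t2 g b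

lemma rA_ratio {κ : ℝ} {s : G3} (h1 : rA s ≤ κ) (h2 : rB s ≤ κ) (g : G3) :
    κ⁻¹ ≤ rA (s * g) / rA g ∧ rA (s * g) / rA g ≤ κ := by
  have hA := rA_pos g
  have hA' := rA_pos (s * g)
  have hκ : 0 < κ := lt_of_lt_of_le (rA_pos s) h1
  constructor
  · rw [le_div_iff₀ hA, inv_mul_le_iff₀ hκ]
    have e1 : rA g ≤ rA s⁻¹ * rA (s * g) := by
      have := rA_mul_le s⁻¹ (s * g)
      rwa [inv_mul_cancel_left] at this
    rw [rA_inv] at e1
    exact e1.trans (mul_le_mul_of_nonneg_right h2 hA'.le)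
  · rw [div_le_iff₀ hA]
    exact (rA_mul_le s g).trans (mul_le_mul_of_nonneg_right h1 hA.le)

lemma rB_ratio {κ : ℝ} {s : G3} (h1 : rA s ≤ κ) (h2 : rB s ≤ κ) (g : G3) :
    κ⁻¹ ≤ rB (s * g) / rB g ∧ rB (s * g) / rB g ≤ κ := by
  have hB := rB_pos g
  have hB' := rB_pos (s * g)
  have hκ : 0 < κ := lt_of_lt_of_le (rA_pos s) h1
  have mulB : ∀ x y : G3, rB (x * y) ≤ rB x * rB y := by
    intro x y
    have := rA_mul_le y⁻¹ x⁻¹
    rw [← mul_inv_rev, rA_inv, rA_inv, rA_inv] at this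
    rwa [mul_comm]
  constructor
  · rw [le_div_iff₀ hB, inv_mul_le_iff₀ hκ]
    have e1 : rB g ≤ rB s⁻¹ * rB (s * g) := by
      have := mulB s⁻¹ (s * g)
      rwa [inv_mul_cancel_left] at this
    rw [rB_inv] at e1
    exact e1.trans (mul_le_mul_of_nonneg_right h1 hB'.le)
  · rw [div_le_iff₀ hB]
    exact (mulB s g).trans (mul_le_mul_of_nonneg_right h2 hB.le)

lemma abs_log_le {κ x : ℝ} (hκ : 0 < κ) (h1 : κ⁻¹ ≤ x) (h2 : x ≤ κ) :
    |Real.log x| ≤ Real.log κ := by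
  have hx : 0 < x := lt_of_lt_of_le (inv_pos.2 hκ) h1
  rw [abs_le]
  constructor
  · rw [← Real.log_inv]
    exact Real.log_le_log (inv_pos.2 hκ) h1
  · exact Real.log_le_log hx h2

lemma abs_log_ratio {κ x y : ℝ} (hκ : 0 < κ) (h1 : κ⁻¹ ≤ x) (h2 : x ≤ κ) (h3 : κ⁻¹ ≤ y)
    (h4 : y ≤ κ) : |Real.log (x ^ 2 / y)| ≤ 3 * Real.log κ := by
  have hx : 0 < x := lt_of_lt_of_le (inv_pos.2 hκ) h1
  have hy : 0 < y := lt_of_lt_of_le (inv_pos.2 hκ) h3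
  rw [Real.log_div (by positivity) hy.ne', Real.log_pow]
  have a1 := abs_log_le hκ h1 h2
  have a2 := abs_log_le hκ h3 h4
  rw [abs_le] at a1 a2 ⊢
  push_cast
  constructor <;> linarith [a1.1, a1.2, a2.1, a2.2]

lemma Reg_mono {R R' : ℝ} {g : G3} (h : R ≤ R') (hg : Reg R' g) : Reg R g :=
  ⟨h.trans hg.1, h.trans hg.2⟩

/-- Amenability functions, from the left estimate. -/
theorem amen_fun_of (hL : LeftEst G3) [DecidableEq G3] (S : Finset G3) {ε : ℝ}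
    (hε : 0 < ε) :
    ∃ (B : Finset G3) (μ : G3 → G3 → ℝ) (R : ℝ), (∀ b g, 0 ≤ μ b g) ∧
      (∀ b ∉ B, ∀ g, μ b g = 0) ∧ (∀ g, ∑ b ∈ B, μ b g ≤ 1) ∧
      (∀ g, 1 - ε ≤ ∑ b ∈ B, μ b g) ∧
      (∀ s ∈ S, ∀ g : G3, Reg R (g : G3) →
        ∑ b ∈ B ∪ B.image (fun b => s⁻¹ * b), |μ (s * b) (s * g) - μ b g| ≤ ε) ∧
      (∀ b t : G3, ∀ δ : ℝ, 0 < δ → ∃ R' : ℝ, ∀ g : G3, Reg R' (g : G3) →
        |μ b (g * t) - μ b g| ≤ δ) := by
  refine asm (f := fun t₁ t₂ (g b : G3) => ff t₁ t₂ (g : G3) (b : G3))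
    (w := fun b : G3 => rA (b : G3)) (fun R (g : G3) => Reg R (g : G3))
    (fun R R' g h hg => Reg_mono h hg) (fun b => rA_pos _)
    (Vale.Agent.P092.H377.summable_hs (Emb.hom : G3 →* _) Emb.fin)
    (fun t₁ t₂ g b => ff_ge t₁ t₂ _ _) (fun t₁ t₂ g b h1 h2 => ff_le t₁ t₂ _ _ h1 h2)
    (fun t₁ t₂ d₁ d₂ g b => ff_shift t₁ t₂ d₁ d₂ _ _) ?_ ?_ S hε
  · intro s
    set κ : ℝ := max (rA (s : G3)) (rB (s : G3)) with hκd
    have hκ1 : rA (s : G3) ≤ κ := le_max_left _ _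
    have hκ2 : rB (s : G3) ≤ κ := le_max_right _ _
    have hκ : 0 < κ := lt_of_lt_of_le (rA_pos _) hκ1
    refine ⟨3 * Real.log κ, fun ρ hρ => ?_⟩
    set θ : ℝ := min 1 (ρ / (2 * (17 * κ ^ 2))) with hθ
    have hθp : 0 < θ := lt_min one_pos (by positivity)
    refine ⟨-2 * Real.log θ, fun T => ?_⟩
    set e : ℝ := min (1 / 2) (ρ / (2 * (11 * κ ^ 3 * Real.exp T))) with he
    have hep : 0 < e := lt_min (by norm_num) (by positivity)
    refine ⟨6 / e, fun g hg => ?_⟩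
    obtain ⟨hq1, hq2⟩ := rA_ratio hκ1 hκ2 (g : G3)
    obtain ⟨hp1, hp2⟩ := rB_ratio hκ1 hκ2 (g : G3)
    refine ⟨rB ((s : G3) * g) / rB (g : G3), _, _, div_pos (rB_pos _) (rB_pos _),
      abs_log_ratio hκ hq1 hq2 hp1 hp2, abs_log_ratio hκ hp1 hp2 hq1 hq2, ?_⟩
    intro t₁ t₂ h1 h2 h3 h4 b
    have hR : 0 < 6 / e := by positivity
    have g1 : 6 / G12 (g : G3) ≤ e := by
      have : 6 / e ≤ G12 (g : G3) := hg.1
      rw [div_le_iff₀ (lt_of_lt_of_le hR this)]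
      rw [div_le_iff₀ hep] at this
      linarith
    have g2 : 6 / G23 (g : G3) ≤ e := by
      have : 6 / e ≤ G23 (g : G3) := hg.2
      rw [div_le_iff₀ (lt_of_lt_of_le hR this)]
      rw [div_le_iff₀ hep] at this
      linarith
    have hexp : ∀ t : ℝ, -2 * Real.log θ ≤ t → Real.exp (-t / 2) ≤ θ := by
      intro t ht
      rw [← Real.le_log_iff_exp_le hθp]
      linarith
    have main := hL κ θ e t₁ t₂ s g b hκ1 hκ2 (min_le_left _ _) g1 g2 (hexp _ h1) (hexp _ h3)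
      (min_le_left _ _)
    have hff := ff_pos t₁ t₂ (g : G3) (b : G3)
    have hcoef : 17 * κ ^ 2 * θ + 11 * κ ^ 3 * e * Real.exp t₁ ≤ ρ := by
      have a1 : 17 * κ ^ 2 * θ ≤ ρ / 2 := by
        have : θ ≤ ρ / (2 * (17 * κ ^ 2)) := min_le_right _ _
        rw [le_div_iff₀ (by positivity)] at this
        linarith
      have a2 : 11 * κ ^ 3 * e * Real.exp t₁ ≤ ρ / 2 := by
        have : e ≤ ρ / (2 * (11 * κ ^ 3 * Real.exp T)) := min_le_right _ _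
        rw [le_div_iff₀ (by positivity)] at this
        have a3 : Real.exp t₁ ≤ Real.exp T := Real.exp_le_exp.2 h2
        have a4 : 11 * κ ^ 3 * e * Real.exp t₁ ≤ 11 * κ ^ 3 * e * Real.exp T :=
          mul_le_mul_of_nonneg_left a3 (by positivity)
        linarith
      linarith
    exact main.trans (mul_le_mul_of_nonneg_right hcoef hff.le)
  · intro t T η hη
    obtain ⟨R', -, hR'⟩ := right_final (t : G3) T hη
    exact ⟨R', fun g hg b t₁ t₂ h1 h2 h3 h4 => hR' g hg b t₁ t₂ h1 h2 h3 h4⟩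

end Vale.Agent.P092.L.H658
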